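import Vale.Agent.Lib.P123.NumRadius

/-!
# The power inequality for the numerical radius

If `|⟪x, T x⟫| ≤ c * ‖x‖ ^ 2` for all `x`, then `|⟪x, T ^ n x⟫| ≤ c ^ n * ‖x‖ ^ 2` for all `x`
and all `n ≥ 1` (Berger's inequality).  The proof is the one with roots of unity: with
`X ^ n - 1 = ∏ (X - ζ)` and `q_ζ = ∏_{η ≠ ζ} (X - η)` one has `(X - ζ) q_ζ = X ^ n - 1` and
`∑ ζ q_ζ = n`.
-/

namespace Vale.Agent.Lib.P123

open scoped InnerProductSpace ComplexConjugate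
open Polynomial

variable {H : Type*} [NormedAddCommGroup H] [InnerProductSpace ℂ H]

/-- The cofactor of `X - ζ` in `X ^ n - 1`. -/
noncomputable def cofactor (n : ℕ) (ζ : ℂ) : ℂ[X] :=
  ∏ η ∈ (nthRootsFinset n (1 : ℂ)).erase ζ, (X - C η)

theorem X_sub_C_mul_cofactor {n : ℕ} (hn : 0 < n) {ζ : ℂ}
    (hζ : ζ ∈ nthRootsFinset n (1 : ℂ)) : (X - C ζ) * cofactor n ζ = X ^ n - 1 := by
  rw [cofactor, Finset.mul_prod_erase _ (fun η => X - C η) hζ]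
  exact (X_pow_sub_one_eq_prod hn (Complex.isPrimitiveRoot_exp n hn.ne')).symm

theorem sum_cofactor {n : ℕ} (hn : 0 < n) :
    ∑ ζ ∈ nthRootsFinset n (1 : ℂ), cofactor n ζ = C (n : ℂ) * X ^ (n - 1) := by
  have h := congrArg derivative
    (X_pow_sub_one_eq_prod hn (Complex.isPrimitiveRoot_exp n hn.ne'))
  rw [derivative_prod_finset] at h
  simp only [derivative_sub, derivative_X_pow, derivative_one, sub_zero, derivative_X,
    derivative_C, mul_one] at h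
  rw [h]
  rfl

theorem sum_C_mul_cofactor {n : ℕ} (hn : 0 < n) :
    ∑ ζ ∈ nthRootsFinset n (1 : ℂ), C ζ * cofactor n ζ = C (n : ℂ) := by
  have h1 : ∀ ζ ∈ nthRootsFinset n (1 : ℂ),
      C ζ * cofactor n ζ = X * cofactor n ζ - (X ^ n - 1) := by
    intro ζ hζ
    rw [← X_sub_C_mul_cofactor hn hζ]
    ring
  rw [Finset.sum_congr rfl h1, Finset.sum_sub_distrib, ← Finset.mul_sum, sum_cofactor hn,
    Finset.sum_const, (Complex.isPrimitiveRoot_exp n hn.ne').card_nthRootsFinset]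
  have h2 : X * (C (n : ℂ) * X ^ (n - 1)) = C (n : ℂ) * X ^ n := by
    rw [mul_left_comm, ← pow_succ', Nat.sub_add_cancel hn]
  rw [h2, nsmul_eq_mul, ← C_eq_natCast]
  ring

theorem norm_eq_one_of_mem_nthRootsFinset {n : ℕ} (hn : 0 < n) {ζ : ℂ}
    (hζ : ζ ∈ nthRootsFinset n (1 : ℂ)) : ‖ζ‖ = 1 := by
  have h1 : ζ ^ n = 1 := (mem_nthRootsFinset hn (1 : ℂ)).mp hζ
  have h2 : ‖ζ‖ ^ n = 1 := by rw [← norm_pow, h1, norm_one]
  exact (pow_eq_one_iff_of_nonneg (norm_nonneg ζ) hn.ne').mp h2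

section Operator

variable (S : H →L[ℂ] H) (x : H) {n : ℕ}

theorem apply_cofactor_sub (hn : 0 < n) {ζ : ℂ} (hζ : ζ ∈ nthRootsFinset n (1 : ℂ)) :
    S (aeval S (cofactor n ζ) x) - ζ • aeval S (cofactor n ζ) x = (S ^ n) x - x := by
  have h := congrArg (fun p : ℂ[X] => aeval S p x) (X_sub_C_mul_cofactor hn hζ)
  simpa only [map_mul, map_sub, aeval_X, aeval_C, map_pow, map_one,
    ContinuousLinearMap.mul_apply, ContinuousLinearMap.sub_apply,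
    Algebra.algebraMap_eq_smul_one, ContinuousLinearMap.smul_apply,
    ContinuousLinearMap.one_apply] using h

theorem sum_smul_cofactor (hn : 0 < n) :
    ∑ ζ ∈ nthRootsFinset n (1 : ℂ), ζ • aeval S (cofactor n ζ) x = (n : ℂ) • x := by
  have h := congrArg (fun p : ℂ[X] => aeval S p x) (sum_C_mul_cofactor hn)
  simpa only [map_sum, map_mul, aeval_C, ContinuousLinearMap.sum_apply,
    ContinuousLinearMap.mul_apply, Algebra.algebraMap_eq_smul_one,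
    ContinuousLinearMap.smul_apply, ContinuousLinearMap.one_apply] using h

end Operator

/-- Key step: if the numerical radius of `S` is at most `1`, then `Re ⟪x, S ^ n x⟫ ≤ ‖x‖ ^ 2`. -/
theorem re_inner_pow_le {S : H →L[ℂ] H} (hS : ∀ x : H, ‖⟪x, S x⟫_ℂ‖ ≤ ‖x‖ ^ 2) {n : ℕ}
    (hn : 0 < n) (x : H) : (⟪x, (S ^ n) x⟫_ℂ).re ≤ ‖x‖ ^ 2 := by
  classical
  set R := nthRootsFinset n (1 : ℂ) with hR
  set xk : ℂ → H := fun ζ => aeval S (cofactor n ζ) x with hxk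
  have key : (n : ℂ) * ⟪x, x - (S ^ n) x⟫_ℂ
      = ∑ ζ ∈ R, (⟪xk ζ, xk ζ⟫_ℂ - conj ζ * ⟪xk ζ, S (xk ζ)⟫_ℂ) := by
    have h1 : (n : ℂ) * ⟪x, x - (S ^ n) x⟫_ℂ = ⟪(n : ℂ) • x, x - (S ^ n) x⟫_ℂ := by
      rw [inner_smul_left, Complex.conj_natCast]
    rw [h1, ← sum_smul_cofactor S x hn, sum_inner]
    apply Finset.sum_congr rfl
    intro ζ hζ
    have h2 : x - (S ^ n) x = ζ • xk ζ - S (xk ζ) := by
      have := apply_cofactor_sub S x hn hζ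
      rw [hxk]
      rw [sub_eq_iff_eq_add] at this
      rw [this]
      abel
    have h3 : conj ζ * ζ = 1 := by
      rw [Complex.conj_mul', norm_eq_one_of_mem_nthRootsFinset hn hζ]
      simp
    rw [inner_smul_left, h2, inner_sub_right, inner_smul_right, mul_sub, ← mul_assoc, h3,
      one_mul]
  have hre := congrArg Complex.re key
  rw [Complex.re_sum] at hre
  have hterm : ∀ ζ ∈ R, 0 ≤ (⟪xk ζ, xk ζ⟫_ℂ - conj ζ * ⟪xk ζ, S (xk ζ)⟫_ℂ).re := by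
    intro ζ hζ
    have h1 : (⟪xk ζ, xk ζ⟫_ℂ).re = ‖xk ζ‖ ^ 2 := by
      rw [inner_self_eq_norm_sq_to_K]
      norm_cast
    have h2 : (conj ζ * ⟪xk ζ, S (xk ζ)⟫_ℂ).re ≤ ‖xk ζ‖ ^ 2 := by
      calc (conj ζ * ⟪xk ζ, S (xk ζ)⟫_ℂ).re ≤ ‖conj ζ * ⟪xk ζ, S (xk ζ)⟫_ℂ‖ :=
            Complex.re_le_norm _
        _ = ‖⟪xk ζ, S (xk ζ)⟫_ℂ‖ := by
            rw [norm_mul, RCLike.norm_conj, norm_eq_one_of_mem_nthRootsFinset hn hζ, one_mul]
        _ ≤ ‖xk ζ‖ ^ 2 := hS _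
    rw [Complex.sub_re, h1]
    linarith
  have hsum : 0 ≤ ((n : ℂ) * ⟪x, x - (S ^ n) x⟫_ℂ).re := by
    rw [hre]
    exact Finset.sum_nonneg hterm
  have h4 : ((n : ℂ) * ⟪x, x - (S ^ n) x⟫_ℂ).re
      = (n : ℝ) * (‖x‖ ^ 2 - (⟪x, (S ^ n) x⟫_ℂ).re) := by
    have h5 : (⟪x, x⟫_ℂ).re = ‖x‖ ^ 2 := by
      rw [inner_self_eq_norm_sq_to_K]
      norm_cast
    rw [← Complex.ofReal_natCast, Complex.re_ofReal_mul, inner_sub_right, Complex.sub_re, h5]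
  rw [h4] at hsum
  have hn' : (0 : ℝ) < n := by exact_mod_cast hn
  have := nonneg_of_mul_nonneg_right hsum hn'
  linarith

/-- The power inequality for operators of numerical radius at most `1`. -/
theorem norm_inner_pow_le {T : H →L[ℂ] H} (hT : ∀ x : H, ‖⟪x, T x⟫_ℂ‖ ≤ ‖x‖ ^ 2) {n : ℕ}
    (hn : 0 < n) (x : H) : ‖⟪x, (T ^ n) x⟫_ℂ‖ ≤ ‖x‖ ^ 2 := by
  set w : ℂ := ⟪x, (T ^ n) x⟫_ℂ with hw
  rcases eq_or_ne w 0 with h0 | h0
  · rw [h0, norm_zero]; positivity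
  have hwpos : 0 < ‖w‖ := norm_pos_iff.mpr h0
  have hwc : ((‖w‖ : ℝ) : ℂ) ≠ 0 := by exact_mod_cast hwpos.ne'
  obtain ⟨ν, hν⟩ := IsAlgClosed.exists_pow_nat_eq (conj w / ((‖w‖ : ℝ) : ℂ)) hn
  have hμ : ‖conj w / ((‖w‖ : ℝ) : ℂ)‖ = 1 := by
    rw [norm_div, RCLike.norm_conj, Complex.norm_real, norm_norm, div_self hwpos.ne']
  have hν1 : ‖ν‖ = 1 := by
    have h2 : ‖ν‖ ^ n = 1 := by rw [← norm_pow, hν, hμ]
    exact (pow_eq_one_iff_of_nonneg (norm_nonneg ν) hn.ne').mp h2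
  have hS : ∀ y : H, ‖⟪y, (ν • T) y⟫_ℂ‖ ≤ ‖y‖ ^ 2 := by
    intro y
    rw [ContinuousLinearMap.smul_apply, inner_smul_right, norm_mul, hν1, one_mul]
    exact hT y
  have h1 := re_inner_pow_le hS hn x
  have h2 : ⟪x, ((ν • T) ^ n) x⟫_ℂ = ((‖w‖ : ℝ) : ℂ) := by
    rw [_root_.smul_pow, ContinuousLinearMap.smul_apply, inner_smul_right, hν, ← hw,
      div_mul_eq_mul_div, Complex.conj_mul']
    rw [div_eq_iff hwc]
    push_cast
    ring
  rw [h2, Complex.ofReal_re] at h1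
  exact h1

/-- Berger's power inequality, homogeneous form. -/
theorem norm_inner_pow_le_of_le {T : H →L[ℂ] H} {c : ℝ} (hc : 0 ≤ c)
    (hT : ∀ x : H, ‖⟪x, T x⟫_ℂ‖ ≤ c * ‖x‖ ^ 2) {n : ℕ} (hn : 0 < n) (x : H) :
    ‖⟪x, (T ^ n) x⟫_ℂ‖ ≤ c ^ n * ‖x‖ ^ 2 := by
  rcases hc.eq_or_lt with h0 | hpos
  · -- `c = 0`: then `T = 0`
    have hT0 : (T : H →ₗ[ℂ] H) = 0 := by
      rw [← inner_map_self_eq_zero]
      intro y
      have h1 := hT y
      rw [← h0, zero_mul] at h1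
      have h2 : ⟪y, T y⟫_ℂ = 0 := norm_le_zero_iff.mp h1
      have h3 : ⟪(T : H →ₗ[ℂ] H) y, y⟫_ℂ = conj ⟪y, T y⟫_ℂ := (inner_conj_symm _ _).symm
      rw [h3, h2, map_zero]
    have hT0' : T = 0 := by
      ext y
      have := congrArg (fun L : H →ₗ[ℂ] H => L y) hT0
      simpa using this
    rw [hT0', zero_pow hn.ne', ContinuousLinearMap.zero_apply, inner_zero_right, norm_zero]
    positivity
  · have hcc : ((c : ℝ) : ℂ) ≠ 0 := by exact_mod_cast hpos.ne'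
    have hS : ∀ y : H, ‖⟪y, ((((c⁻¹ : ℝ) : ℂ)) • T) y⟫_ℂ‖ ≤ ‖y‖ ^ 2 := by
      intro y
      rw [ContinuousLinearMap.smul_apply, inner_smul_right, norm_mul, Complex.norm_real,
        norm_inv, Real.norm_of_nonneg hc]
      calc c⁻¹ * ‖⟪y, T y⟫_ℂ‖ ≤ c⁻¹ * (c * ‖y‖ ^ 2) := by gcongr; exact hT y
        _ = ‖y‖ ^ 2 := by field_simp
    have h1 := norm_inner_pow_le hS hn x
    rw [_root_.smul_pow, ContinuousLinearMap.smul_apply, inner_smul_right, norm_mul, norm_pow,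
      Complex.norm_real, norm_inv, Real.norm_of_nonneg hc] at h1
    have hcn : 0 < c ^ n := pow_pos hpos n
    calc ‖⟪x, (T ^ n) x⟫_ℂ‖ = c ^ n * ((c⁻¹) ^ n * ‖⟪x, (T ^ n) x⟫_ℂ‖) := by
          rw [inv_pow]; field_simp
      _ ≤ c ^ n * ‖x‖ ^ 2 := by gcongr

/-- Crouzeix's inequality with constant `2` for powers of affine polynomials. -/
theorem norm_affine_pow_le [Nontrivial H] (A : H →L[ℂ] H) (a b : ℂ) (n : ℕ) (K : ℝ)
    (hK : ∀ x : H, ‖x‖ = 1 → ‖(a * ⟪x, A x⟫_ℂ + b) ^ n‖ ≤ K) :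
    ‖(a • A + b • (1 : H →L[ℂ] H)) ^ n‖ ≤ 2 * K := by
  obtain ⟨x₀, hx₀⟩ := exists_norm_eq H (zero_le_one' ℝ)
  have hK0 : 0 ≤ K := (norm_nonneg _).trans (hK x₀ hx₀)
  rcases Nat.eq_zero_or_pos n with rfl | hn
  · have h1 := hK x₀ hx₀
    rw [pow_zero, norm_one] at h1
    rw [pow_zero]
    calc ‖(1 : H →L[ℂ] H)‖ ≤ 1 := ContinuousLinearMap.norm_id_le
      _ ≤ 2 * K := by linarith
  set T : H →L[ℂ] H := a • A + b • (1 : H →L[ℂ] H) with hTdef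
  set c : ℝ := K ^ ((n : ℝ)⁻¹) with hcdef
  have hc0 : 0 ≤ c := Real.rpow_nonneg hK0 _
  have hcn : c ^ n = K := Real.rpow_inv_natCast_pow hK0 hn.ne'
  have hunit : ∀ x : H, ‖x‖ = 1 → ‖⟪x, T x⟫_ℂ‖ ≤ c := by
    intro x hx
    have h1 : ⟪x, T x⟫_ℂ = a * ⟪x, A x⟫_ℂ + b := by
      rw [hTdef, ContinuousLinearMap.add_apply, ContinuousLinearMap.smul_apply,
        ContinuousLinearMap.smul_apply, ContinuousLinearMap.one_apply, inner_add_right,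
        inner_smul_right, inner_smul_right, inner_self_eq_norm_sq_to_K, hx]
      simp
    have h2 := hK x hx
    rw [norm_pow, ← hcn, ← h1] at h2
    exact le_of_pow_le_pow_left₀ hn.ne' hc0 h2
  have hhom := norm_inner_le_of_unit hunit
  have hpow : ∀ x : H, ‖⟪x, (T ^ n) x⟫_ℂ‖ ≤ K * ‖x‖ ^ 2 := by
    intro x
    rw [← hcn]
    exact norm_inner_pow_le_of_le hc0 hhom hn x
  exact opNorm_le_two_mul hK0 hpow

end Vale.Agent.Lib.P123
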