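import Mathlib

/-!
# The numerical radius inequality

For a bounded operator `T` on a complex inner product space, if `|⟪x, T x⟫| ≤ c` for all unit
vectors `x`, then `‖T‖ ≤ 2 * c`.
-/

namespace Vale.Agent.Lib.P123

open scoped InnerProductSpace ComplexConjugate

variable {H : Type*} [NormedAddCommGroup H] [InnerProductSpace ℂ H]

/-- Homogeneous form of a bound on the numerical range. -/
theorem norm_inner_le_of_unit {T : H →L[ℂ] H} {c : ℝ}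
    (h : ∀ x : H, ‖x‖ = 1 → ‖⟪x, T x⟫_ℂ‖ ≤ c) (x : H) : ‖⟪x, T x⟫_ℂ‖ ≤ c * ‖x‖ ^ 2 := by
  rcases eq_or_ne x 0 with rfl | hx
  · simp
  have hpos : 0 < ‖x‖ := norm_pos_iff.mpr hx
  set u : H := ((‖x‖⁻¹ : ℝ) : ℂ) • x with hu
  have hu1 : ‖u‖ = 1 := by
    rw [hu, norm_smul, Complex.norm_real, norm_inv, norm_norm, inv_mul_cancel₀ hpos.ne']
  have h1 := h u hu1
  have h2 : ⟪u, T u⟫_ℂ = ((‖x‖⁻¹ : ℝ) : ℂ) * ((‖x‖⁻¹ : ℝ) : ℂ) * ⟪x, T x⟫_ℂ := by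
    rw [hu, map_smul, inner_smul_left, inner_smul_right, Complex.conj_ofReal]
    ring
  rw [h2, norm_mul, norm_mul, Complex.norm_real, norm_inv, norm_norm] at h1
  have h3 : ‖⟪x, T x⟫_ℂ‖ = ‖x‖ ^ 2 * (‖x‖⁻¹ * ‖x‖⁻¹ * ‖⟪x, T x⟫_ℂ‖) := by
    field_simp
  rw [h3]
  calc ‖x‖ ^ 2 * (‖x‖⁻¹ * ‖x‖⁻¹ * ‖⟪x, T x⟫_ℂ‖) ≤ ‖x‖ ^ 2 * c := by gcongr
    _ = c * ‖x‖ ^ 2 := mul_comm _ _

/-- Polarization bound: if `|⟪x, T x⟫| ≤ c * ‖x‖ ^ 2` for all `x`, then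
`|⟪T x, y⟫| ≤ c * (‖x‖ ^ 2 + ‖y‖ ^ 2)`. -/
theorem norm_inner_le_add {T : H →L[ℂ] H} {c : ℝ}
    (h : ∀ x : H, ‖⟪x, T x⟫_ℂ‖ ≤ c * ‖x‖ ^ 2) (x y : H) :
    ‖⟪T x, y⟫_ℂ‖ ≤ c * (‖x‖ ^ 2 + ‖y‖ ^ 2) := by
  have h' : ∀ z : H, ‖⟪T z, z⟫_ℂ‖ ≤ c * ‖z‖ ^ 2 := by
    intro z
    rw [← inner_conj_symm, RCLike.norm_conj]
    exact h z
  have hpol := inner_map_polarization' (T : H →ₗ[ℂ] H) x y
  simp only [ContinuousLinearMap.coe_coe] at hpol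
  have hI : ‖Complex.I • y‖ = ‖y‖ := by rw [norm_smul, Complex.norm_I, one_mul]
  have p1 := parallelogram_law_with_norm ℂ x y
  have p2 := parallelogram_law_with_norm ℂ x (Complex.I • y)
  rw [hI] at p2
  have e1 := h' (x + y)
  have e2 := h' (x - y)
  have e3 := h' (x + Complex.I • y)
  have e4 := h' (x - Complex.I • y)
  rw [hpol, norm_div]
  have h4 : ‖(4 : ℂ)‖ = 4 := by norm_num
  rw [h4, div_le_iff₀ (by norm_num : (0 : ℝ) < 4)]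
  calc ‖⟪T (x + y), x + y⟫_ℂ - ⟪T (x - y), x - y⟫_ℂ
        - Complex.I * ⟪T (x + Complex.I • y), x + Complex.I • y⟫_ℂ
        + Complex.I * ⟪T (x - Complex.I • y), x - Complex.I • y⟫_ℂ‖
      ≤ ‖⟪T (x + y), x + y⟫_ℂ‖ + ‖⟪T (x - y), x - y⟫_ℂ‖
        + ‖Complex.I * ⟪T (x + Complex.I • y), x + Complex.I • y⟫_ℂ‖
        + ‖Complex.I * ⟪T (x - Complex.I • y), x - Complex.I • y⟫_ℂ‖ := by
        refine (norm_add_le _ _).trans ?_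
        gcongr
        refine (norm_sub_le _ _).trans ?_
        gcongr
        exact norm_sub_le _ _
    _ ≤ c * ‖x + y‖ ^ 2 + c * ‖x - y‖ ^ 2 + c * ‖x + Complex.I • y‖ ^ 2
        + c * ‖x - Complex.I • y‖ ^ 2 := by
        rw [norm_mul, norm_mul, Complex.norm_I, one_mul, one_mul]
        gcongr
    _ = c * (‖x + y‖ ^ 2 + ‖x - y‖ ^ 2)
        + c * (‖x + Complex.I • y‖ ^ 2 + ‖x - Complex.I • y‖ ^ 2) := by ring
    _ = c * (‖x‖ ^ 2 + ‖y‖ ^ 2) * 4 := by rw [p1, p2]; ring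

/-- The numerical radius inequality, homogeneous form. -/
theorem opNorm_le_two_mul {T : H →L[ℂ] H} {c : ℝ} (hc : 0 ≤ c)
    (h : ∀ x : H, ‖⟪x, T x⟫_ℂ‖ ≤ c * ‖x‖ ^ 2) : ‖T‖ ≤ 2 * c := by
  apply ContinuousLinearMap.opNorm_le_bound _ (by positivity)
  intro x
  rcases eq_or_ne (T x) 0 with h0 | h0
  · rw [h0, norm_zero]; positivity
  have hx : x ≠ 0 := fun hx => h0 (by rw [hx, map_zero])
  have hs : 0 < ‖x‖ := norm_pos_iff.mpr hx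
  have ht : 0 < ‖T x‖ := norm_pos_iff.mpr h0
  set y : H := ((‖x‖ / ‖T x‖ : ℝ) : ℂ) • T x with hy
  have hynorm : ‖y‖ = ‖x‖ := by
    rw [hy, norm_smul, Complex.norm_real, norm_div, norm_norm, norm_norm]
    field_simp
  have hin : ⟪T x, y⟫_ℂ = ((‖x‖ * ‖T x‖ : ℝ) : ℂ) := by
    have htc : ((‖T x‖ : ℝ) : ℂ) ≠ 0 := by exact_mod_cast ht.ne'
    rw [hy, inner_smul_right, inner_self_eq_norm_sq_to_K]
    push_cast
    field_simp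
    rfl
  have key := norm_inner_le_add h x y
  rw [hin, Complex.norm_real, hynorm, Real.norm_of_nonneg (by positivity)] at key
  -- `‖x‖ * ‖T x‖ ≤ c * (‖x‖ ^ 2 + ‖x‖ ^ 2)`
  have : ‖T x‖ * ‖x‖ ≤ (2 * c * ‖x‖) * ‖x‖ := by nlinarith
  exact le_of_mul_le_mul_right this hs

/-- The numerical radius inequality. -/
theorem opNorm_le_two_mul_of_unit [Nontrivial H] {T : H →L[ℂ] H} {c : ℝ}
    (h : ∀ x : H, ‖x‖ = 1 → ‖⟪x, T x⟫_ℂ‖ ≤ c) : ‖T‖ ≤ 2 * c := by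
  obtain ⟨x, hx⟩ := exists_norm_eq H (zero_le_one' ℝ)
  have hc : 0 ≤ c := (norm_nonneg _).trans (h x hx)
  exact opNorm_le_two_mul hc (norm_inner_le_of_unit h)

end Vale.Agent.Lib.P123
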